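import Mathlib
import Vale.Agent.P177.H335.Sym

/-!
Serre's conjectures on intersection multiplicities over regular local rings, their form with Ext,
the duality `M ↦ Ext^c(M, R)`, and complexes of free modules.
-/

namespace Vale.Agent.Results.P177.EulerForm

open CategoryTheory TensorProduct

universe u

/-- The module `Tor_i^R(M, N)`. -/
noncomputable abbrev tor (R : Type u) [CommRing R] (i : ℕ) (M N : Type u) [AddCommGroup M]
    [Module R M] [AddCommGroup N] [Module R N] : ModuleCat.{u} R :=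
  ((Tor (ModuleCat.{u} R) i).obj (ModuleCat.of R M)).obj (ModuleCat.of R N)

/-- The module `Ext^i_R(M, N)`. -/
abbrev ext (R : Type u) [CommRing R] (i : ℕ) (M N : Type u) [AddCommGroup M]
    [Module R M] [AddCommGroup N] [Module R N] : Type u :=
  Abelian.Ext (ModuleCat.of R M) (ModuleCat.of R N) i

/-- Serre's intersection multiplicity `∑_{i ≤ d} (-1)^i length Tor_i^R(M, N)`. -/
noncomputable def chi (R : Type u) [CommRing R] (d : ℕ) (M N : Type u) [AddCommGroup M]
    [Module R M] [AddCommGroup N] [Module R N] : ℤ :=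
  ∑ i ∈ Finset.range (d + 1), (-1 : ℤ) ^ i * ((Module.length R (tor R i M N)).toNat : ℤ)

/-- The Euler form `∑_{i ≤ d} (-1)^i length Ext^i_R(M, N)`. -/
noncomputable def xi (R : Type u) [CommRing R] (d : ℕ) (M N : Type u) [AddCommGroup M]
    [Module R M] [AddCommGroup N] [Module R N] : ℤ :=
  ∑ i ∈ Finset.range (d + 1), (-1 : ℤ) ^ i * ((Module.length R (ext R i M N)).toNat : ℤ)

/-- The coboundaries of a complex `C 0 → C 1 → ⋯`: `0` in degree `0`, the image of `D (j - 1)` in
degree `j > 0`. -/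
def bd {R : Type u} [CommRing R] {C : ℕ → Type u} [∀ j, AddCommGroup (C j)]
    [∀ j, Module R (C j)] (D : ∀ j, C j →ₗ[R] C (j + 1)) : ∀ j, Submodule R (C j)
  | 0 => ⊥
  | j + 1 => LinearMap.range (D j)

/-- The subquotient `Z / (B ∩ Z)`. -/
def subquot {R : Type u} [CommRing R] {A : Type u} [AddCommGroup A] [Module R A]
    (Z B : Submodule R A) : ModuleCat.{u} R :=
  ModuleCat.of R (Z ⧸ B.submoduleOf Z)

/-- The cohomology `ker D_j / im D_(j-1)` of a complex `C 0 → C 1 → ⋯`. -/
def coh {R : Type u} [CommRing R] {C : ℕ → Type u} [∀ j, AddCommGroup (C j)]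
    [∀ j, Module R (C j)] (D : ∀ j, C j →ₗ[R] C (j + 1)) (j : ℕ) : ModuleCat.{u} R :=
  subquot (LinearMap.ker (D j)) (bd D j)

/-- The cohomology of the tensor product of a complex with a module. -/
def cohTensor {R : Type u} [CommRing R] {C : ℕ → Type u} [∀ j, AddCommGroup (C j)]
    [∀ j, Module R (C j)] (D : ∀ j, C j →ₗ[R] C (j + 1)) (N : Type u) [AddCommGroup N]
    [Module R N] (j : ℕ) : ModuleCat.{u} R :=
  coh (C := fun j => C j ⊗[R] N) (fun j => (D j).rTensor N) j

theorem bd_eq {R : Type u} [CommRing R] {C : ℕ → Type u} [∀ j, AddCommGroup (C j)]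
    [∀ j, Module R (C j)] (D : ∀ j, C j →ₗ[R] C (j + 1)) (j : ℕ) :
    bd D j = Vale.Agent.P177.H335.Bd D j := by
  cases j <;> rfl

/-- The form of Serre's conjectures with Ext. -/
def ExtForm (R : Type u) [CommRing R] (d : ℕ) (M N : Type u) [AddCommGroup M]
    [Module R M] [AddCommGroup N] [Module R N] : Prop :=
  (∀ i : ℕ, Module.length R (ext R i M N) ≠ ⊤) ∧
  (∀ i : ℕ, d < i → Subsingleton (ext R i M N)) ∧
  (∀ n : ℕ, Module.supportDim R N = n →
    xi R d M N = (-1) ^ n * chi R d M N ∧
    0 ≤ (-1) ^ n * xi R d M N ∧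
    (0 < (-1) ^ n * xi R d M N ↔ Module.supportDim R M + Module.supportDim R N = d)) ∧
  xi R d N M = (-1) ^ d * xi R d M N

/-- The duality `M ↦ Ext^c(M, R)`, `c = d - dim M`, preserves intersection multiplicities. -/
def DualForm (R : Type u) [CommRing R] (d : ℕ) (M N : Type u) [AddCommGroup M]
    [Module R M] [AddCommGroup N] [Module R N] : Prop :=
  ∀ m : ℕ, Module.supportDim R M = m →
    (∀ j : ℕ, j < d - m → Subsingleton (ext R j M R)) ∧
    (∀ j : ℕ, j ≤ d → Module.supportDim R (ext R j M R) ≤ ((d - j : ℕ) : WithBot ℕ∞)) ∧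
    chi R d (ext R (d - m) M R) N = chi R d M N

/-- The Euler characteristic of the tensor product of a complex and a module. -/
def ComplexForm (R : Type u) [CommRing R] (d : ℕ) : Prop :=
  ∀ (C : ℕ → Type u) [∀ j, AddCommGroup (C j)] [∀ j, Module R (C j)]
    [∀ j, Module.Free R (C j)] [∀ j, Module.Finite R (C j)]
    (D : ∀ j, C j →ₗ[R] C (j + 1)) (r : ℕ), (∀ j, bd D j ≤ LinearMap.ker (D j)) →
    (∀ j, r < j → Subsingleton (C j)) →
  ∀ (N : Type u) [AddCommGroup N] [Module R N] [Module.Finite R N],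
    (∀ j, Module.length R (coh D j ⊗[R] N) ≠ ⊤) →
  (∀ j, Module.length R (cohTensor D N j) ≠ ⊤) ∧
  ∑ j ∈ Finset.range (r + 1), (-1 : ℤ) ^ j * ((Module.length R (cohTensor D N j)).toNat : ℤ) =
  ∑ j ∈ Finset.range (r + 1), (-1 : ℤ) ^ j * chi R d (coh D j) N

/-- Let `R` be a regular local ring of dimension `d`.

Let `M`, `N` be finitely generated with `M ⊗ N` of finite length.
(1) Serre's conjectures: the `Tor_i(M, N)` have finite length and vanish for `i > d`,
`dim M + dim N ≤ d`, `χ(M, N) ≥ 0`, and `χ(M, N) > 0` exactly if `dim M + dim N = d`.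
(2) `ExtForm`, the same with Ext: the `Ext^i(M, N)` have finite length and vanish for `i > d`; if
`n = dim N`, then `ξ(M, N) = (-1)^n χ(M, N)`, so that `(-1)^n ξ(M, N) ≥ 0`, and it is positive
exactly if `dim M + dim N = d`; and `ξ(N, M) = (-1)^d ξ(M, N)`.
(3) `DualForm`: if `m = dim M`, then `Ext^j(M, R)` vanishes for `j < d - m` and has dimension at
most `d - j` for all `j ≤ d`, and `χ(Ext^(d-m)(M, R), N) = χ(M, N)`.

(4) `ComplexForm`: let `0 → C 0 → C 1 → ⋯ → C r → 0` be a complex of finitely generated free modules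
and let `N` be finitely generated such that all `H^j(C) ⊗ N` have finite length. Then all
`H^j(C ⊗ N)` have finite length, and `∑ (-1)^j length H^j(C ⊗ N) = ∑ (-1)^j χ(H^j(C), N)`. -/
theorem result (R : Type u) [CommRing R] [IsRegularLocalRing R] (d : ℕ)
    (hd : ringKrullDim R = d) :
    (∀ (M N : Type u) [AddCommGroup M] [Module R M] [Module.Finite R M]
        [AddCommGroup N] [Module R N] [Module.Finite R N], Module.length R (M ⊗[R] N) ≠ ⊤ →
      ((∀ i : ℕ, Module.length R (tor R i M N) ≠ ⊤) ∧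
        (∀ i : ℕ, d < i → Subsingleton (tor R i M N)) ∧
        Module.supportDim R M + Module.supportDim R N ≤ d ∧
        0 ≤ chi R d M N ∧
        (0 < chi R d M N ↔ Module.supportDim R M + Module.supportDim R N = d)) ∧
      ExtForm R d M N ∧ DualForm R d M N) ∧
    ComplexForm R d := by
  refine ⟨?_, ?_⟩
  · intro M N _ _ _ _ _ _ hlen
    have hpos := Vale.Agent.P177.H391.pos_iff hd M N hlen
    have hnn := Vale.Agent.P177.H391.nonNeg hd M N hlen
    have hdim := Vale.Agent.P177.H391.dim_le hd M N hlen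
    have hsq : ∀ n : ℕ, ((-1 : ℤ) ^ n) * (-1) ^ n = 1 := fun n => by
      rw [← mul_pow]; simp
    refine ⟨⟨fun i => Vale.Agent.P177.tor_length_ne_top i M N hlen,
      fun i hi => Vale.Agent.P177.regular_tor_vanish R d hd M N i hi, hdim, hnn, hpos⟩,
      ⟨fun i => Vale.Agent.P177.H335.ext_length_ne_top i M N hlen,
        fun i hi => Vale.Agent.P177.H335.ext_vanish hd M N i hi, ?_, ?_⟩, ?_⟩
    · intro n hn
      have h1 : xi R d M N = (-1) ^ n * chi R d M N :=
        Vale.Agent.P177.H335.eulerExt_eq hd n M N hn hlen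
      have h2 : (-1) ^ n * xi R d M N = chi R d M N := by
        rw [h1, ← mul_assoc, hsq, one_mul]
      refine ⟨h1, ?_, ?_⟩
      · rw [h2]; exact hnn
      · rw [h2]; exact hpos
    · exact Vale.Agent.P177.H335.eulerExt_symm hd M N hlen
    · intro m hm
      refine ⟨fun j hj => Vale.Agent.P177.H335.ext_below_codim hd M m hm.le j (by omega),
        fun j _ => Vale.Agent.P177.H335.supportDim_ext_le_sub hd M j,
        Vale.Agent.P177.H335.duality hd m M N hm hlen⟩
  · intro C _ _ _ _ D r hD hr N _ _ _ hlen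
    have hD' : ∀ j x, D (j + 1) (D j x) = 0 := fun j x =>
      LinearMap.mem_ker.mp (hD (j + 1) ⟨x, rfl⟩)
    have h1 : bd D = Vale.Agent.P177.H335.Bd D := funext (bd_eq D)
    have h2 : bd (C := fun j => C j ⊗[R] N) (fun j => (D j).rTensor N) =
        Vale.Agent.P177.H335.Bd (C := fun j => C j ⊗[R] N) (fun j => (D j).rTensor N) :=
      funext (bd_eq _)
    unfold cohTensor coh subquot at *
    rw [h1] at hlen
    rw [h1, h2]
    exact Vale.Agent.P177.H335.complex_formula hd D hD' r hr N hlen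

end Vale.Agent.Results.P177.EulerForm
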