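import Mathlib
import Vale.Agent.P177.H391.Fin

/-!
Serre's intersection multiplicities on regular local rings: the dimension inequality, vanishing and
positivity, with the cycle formula and the resulting lower bound; the same theorem for any finite
number of modules; and intersection multiplicities of any finite number of integral subschemes
along a component of their intersection.
-/

namespace Vale.Agent.Results.P177.SerreConjectures

open CategoryTheory TensorProduct

universe u

/-- The module `Tor_i^R(M, N)`. -/
noncomputable def tor (R : Type u) [CommRing R] (i : ℕ) (M N : Type u) [AddCommGroup M]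
    [Module R M] [AddCommGroup N] [Module R N] : ModuleCat.{u} R :=
  ((Tor (ModuleCat.{u} R) i).obj (ModuleCat.of R M)).obj (ModuleCat.of R N)

/-- Serre's intersection multiplicity `∑_{i ≤ d} (-1)^i length Tor_i^R(M, N)`. -/
noncomputable def chi (R : Type u) [CommRing R] (d : ℕ) (M N : Type u) [AddCommGroup M]
    [Module R M] [AddCommGroup N] [Module R N] : ℤ :=
  ∑ i ∈ Finset.range (d + 1), (-1 : ℤ) ^ i * ((Module.length R (tor R i M N)).toNat : ℤ)

open scoped Classical in
/-- The coefficient of the prime `P` in the `m`-dimensional cycle of `M`: the length of the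
localization `M_P` over `R_P` if `dim R/P = m`, and `0` otherwise. -/
noncomputable def cyc (R : Type u) [CommRing R] (m : ℕ) (M : Type u) [AddCommGroup M]
    [Module R M] (P : PrimeSpectrum R) : ℤ :=
  if Module.supportDim R (R ⧸ P.asIdeal) = m then
    ((Module.length (Localization.AtPrime P.asIdeal)
      (Localization.AtPrime P.asIdeal ⊗[R] M)).toNat : ℤ) else 0

/-- The bilinear extension of `chi` to cycles, evaluated at the `m`-dimensional cycle of `M` and
the `n`-dimensional cycle of `N`: `∑_{P, Q} cyc_m(M)(P) cyc_n(N)(Q) chi(R/P, R/Q)`. -/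
noncomputable def cycChi (R : Type u) [CommRing R] (d m n : ℕ) (M N : Type u) [AddCommGroup M]
    [Module R M] [AddCommGroup N] [Module R N] : ℤ :=
  ∑ᶠ P : PrimeSpectrum R, ∑ᶠ Q : PrimeSpectrum R,
    cyc R m M P * cyc R n N Q * chi R d (R ⧸ P.asIdeal) (R ⧸ Q.asIdeal)

/-- The tensor product `X ⊗ M₁ ⊗ ⋯ ⊗ M_r` for the list `L = [M₁, …, M_r]`. -/
noncomputable def tens (R : Type u) [CommRing R] (L : List (ModuleCat.{u} R))
    (X : ModuleCat.{u} R) : ModuleCat.{u} R :=
  L.foldl (fun Y M : ModuleCat.{u} R => ModuleCat.of R (Y ⊗[R] M)) X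

/-- The intersection multiplicity of the modules `X, M₁, …, M_r` for the list `L = [M₁, …, M_r]`:
it is the length of `X` if `L` is empty, and
`χ(X; M₁, …, M_r) = ∑_{i ≤ d} (-1)^i χ(Tor_i(X, M₁); M₂, …, M_r)`. -/
noncomputable def mchi (R : Type u) [CommRing R] (d : ℕ) (L : List (ModuleCat.{u} R)) :
    ModuleCat.{u} R → ℤ :=
  L.foldr (fun (M : ModuleCat.{u} R) (φ : ModuleCat.{u} R → ℤ) (X : ModuleCat.{u} R) =>
    ∑ i ∈ Finset.range (d + 1), (-1 : ℤ) ^ i * φ (tor R i X M))
    (fun X : ModuleCat.{u} R => ((Module.length R X).toNat : ℤ))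

/-- The module `A_m / I A_m` over `A_m`. -/
noncomputable def locQuot {A : Type u} [CommRing A] (m : Ideal A) [m.IsPrime] (I : Ideal A) :
    ModuleCat.{u} (Localization.AtPrime m) :=
  ModuleCat.of (Localization.AtPrime m)
    (Localization.AtPrime m ⧸ I.map (algebraMap A (Localization.AtPrime m)))

/-- The intersection multiplicity of `V(P), V(P₁), …, V(P_r)` along `V(m)`, for the list
`L = [P₁, …, P_r]`. -/
noncomputable def along {A : Type u} [CommRing A] (m : Ideal A) [m.IsPrime] (P : Ideal A)
    (L : List (Ideal A)) : ℤ :=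
  mchi (Localization.AtPrime m) m.height.toNat (L.map (locQuot m)) (locQuot m P)

theorem tens_eq (R : Type u) [CommRing R] (L : List (ModuleCat.{u} R)) (X : ModuleCat.{u} R) :
    tens R L X = Vale.Agent.P177.H391.mten L X := by
  induction L generalizing X with
  | nil => rfl
  | cons M L ih => exact ih _

theorem mchi_eq (R : Type u) [CommRing R] (d : ℕ) (L : List (ModuleCat.{u} R)) :
    mchi R d L = Vale.Agent.P177.H391.mchi d L := by
  induction L with
  | nil => rfl
  | cons M L ih =>
    funext X
    change ∑ i ∈ Finset.range (d + 1), (-1 : ℤ) ^ i * mchi R d L (tor R i X M) = _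
    rw [ih]
    rfl

theorem foldr_eq {A : Type u} [CommRing A] (L : List (Ideal A)) (P : Ideal A) :
    L.foldr (fun I J => I ⊔ J) P = P ⊔ ⨆ I ∈ L, I := by
  refine le_antisymm ?_ (sup_le (Vale.Agent.P177.H391.le_foldr L P).1
    (iSup₂_le (Vale.Agent.P177.H391.le_foldr L P).2))
  induction L with
  | nil => exact le_sup_left
  | cons I L ih =>
    rw [List.foldr_cons]
    refine sup_le (le_trans (le_iSup₂ (f := fun (J : Ideal A) (_ : J ∈ I :: L) => J) I (by simp))
      le_sup_right) (ih.trans (sup_le_sup_left (iSup₂_le fun J hJ =>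
        le_iSup₂ (f := fun (J : Ideal A) (_ : J ∈ I :: L) => J) J (by simp [hJ])) P))

/-- (1) Serre's conjectures in full for two modules. Let `R` be a regular local ring of dimension
`d` and let `M`, `N` be finitely generated with `M ⊗ N` of finite length. Then the `Tor_i(M, N)`
have finite length and vanish for `i > d`, `dim M + dim N ≤ d`, the multiplicity is nonnegative,
and it is positive exactly if `dim M + dim N = d`; in that case it is given by the cycles of `M` and
`N` and is at least the product of their degrees.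
(2) The same for any finite number of modules `X, M₁, …, M_r` with `X ⊗ M₁ ⊗ ⋯ ⊗ M_r` of finite
length: `dim X + ∑ dim M_i ≤ r d`, the multiplicity is nonnegative, and it is positive exactly if
equality holds.
(3) Let `A` be a commutative ring, let `P, P₁, …, P_r` be primes and let `m` be a minimal prime of
`P + P₁ + ⋯ + P_r` such that `A_m` is regular. Then `ht m ≤ ht P + ∑ ht P_i`, the intersection
multiplicity along `m` is nonnegative, and it is positive exactly if the intersection is proper at
`m`, that is if `ht m = ht P + ∑ ht P_i`. -/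
theorem result :
    (∀ (R : Type u) [CommRing R] [IsRegularLocalRing R] (d : ℕ), ringKrullDim R = d →
      ∀ (M N : Type u) [AddCommGroup M] [Module R M] [Module.Finite R M]
        [AddCommGroup N] [Module R N] [Module.Finite R N], Module.length R (M ⊗[R] N) ≠ ⊤ →
      (∀ i : ℕ, Module.length R (tor R i M N) ≠ ⊤) ∧
      (∀ i : ℕ, d < i → Subsingleton (tor R i M N)) ∧
      Module.supportDim R M + Module.supportDim R N ≤ d ∧
      0 ≤ chi R d M N ∧
      (0 < chi R d M N ↔ Module.supportDim R M + Module.supportDim R N = d) ∧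
      (∀ m n : ℕ, Module.supportDim R M = m → Module.supportDim R N = n → m + n = d →
        chi R d M N = cycChi R d m n M N ∧
        (∑ᶠ P : PrimeSpectrum R, cyc R m M P) * (∑ᶠ Q : PrimeSpectrum R, cyc R n N Q) ≤
          chi R d M N)) ∧
    (∀ (R : Type u) [CommRing R] [IsRegularLocalRing R] (d : ℕ), ringKrullDim R = d →
      ∀ (X : ModuleCat.{u} R) (L : List (ModuleCat.{u} R)), Module.Finite R X →
      (∀ M ∈ L, Module.Finite R M) → Module.length R (tens R L X) ≠ ⊤ →
      Module.supportDim R X + (L.map fun M : ModuleCat.{u} R => Module.supportDim R M).sum ≤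
        ((L.length * d : ℕ) : WithBot ℕ∞) ∧
      0 ≤ mchi R d L X ∧
      (0 < mchi R d L X ↔
        Module.supportDim R X + (L.map fun M : ModuleCat.{u} R => Module.supportDim R M).sum =
          ((L.length * d : ℕ) : WithBot ℕ∞))) ∧
    (∀ (A : Type u) [CommRing A] (P : Ideal A) (L : List (Ideal A)) (m : Ideal A) [m.IsPrime]
      [IsRegularLocalRing (Localization.AtPrime m)], P.IsPrime → (∀ I ∈ L, I.IsPrime) →
      m ∈ (P ⊔ ⨆ I ∈ L, I).minimalPrimes →
      m.height ≤ P.height + (L.map Ideal.height).sum ∧
      0 ≤ along m P L ∧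
      (0 < along m P L ↔ m.height = P.height + (L.map Ideal.height).sum)) := by
  refine ⟨?_, ?_, ?_⟩
  · intro R _ _ d hd M N _ _ _ _ _ _ hlen
    refine ⟨fun i => Vale.Agent.P177.tor_length_ne_top i M N hlen,
      fun i hi => Vale.Agent.P177.regular_tor_vanish R d hd M N i hi,
      Vale.Agent.P177.H391.dim_le hd M N hlen,
      Vale.Agent.P177.H391.nonNeg hd M N hlen,
      Vale.Agent.P177.H391.pos_iff hd M N hlen, ?_⟩
    intro m n hm hn hmn
    exact ⟨Vale.Agent.P177.H391.cycle_formula hd (Vale.Agent.P177.H391.nonNeg hd) m n hmn M hm.le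
      N hn.le hlen, Vale.Agent.P177.H391.lower_bound hd m n hmn M hm.le N hn.le hlen⟩
  · intro R _ _ d hd X L hX hL hlen
    rw [mchi_eq]
    rw [tens_eq] at hlen
    exact Vale.Agent.P177.H391.multi_final hd L hL X hX hlen
  · intro A _ P L m _ hreg hP hL hm
    rw [← foldr_eq] at hm
    obtain ⟨h, hh⟩ : ∃ h : ℕ, m.height = h := by
      have h1 := IsLocalization.AtPrime.ringKrullDim_eq_height m (Localization.AtPrime m)
      obtain ⟨d, hd⟩ := Vale.Agent.P177.exists_nat_eq_ringKrullDim (Localization.AtPrime m)
      rw [hd] at h1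
      exact ⟨d, by exact_mod_cast h1.symm⟩
    have h2 : along m P L = Vale.Agent.P177.H391.mchi h (L.map (locQuot m)) (locQuot m P) := by
      unfold along
      rw [mchi_eq, hh]
      rfl
    rw [h2]
    exact Vale.Agent.P177.H391.geom_final (Localization.AtPrime m) A m P L hP hL hm h hh

end Vale.Agent.Results.P177.SerreConjectures
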